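import Vale.Agent.Lib.P247.Defs

namespace Vale.Agent.Lib.P247

lemma wedge_comm (a b : Fin 4 → Fin 4 → ℝ) : wedge a b = wedge b a := by
  unfold wedge; ring

lemma wedge_add_right (a b c : Fin 4 → Fin 4 → ℝ) : wedge a (b + c) = wedge a b + wedge a c := by
  simp only [wedge, Pi.add_apply]; ring

lemma wedge_smul_right (t : ℝ) (a b : Fin 4 → Fin 4 → ℝ) : wedge a (t • b) = t * wedge a b := by
  simp only [wedge, Pi.smul_apply, smul_eq_mul]; ring

lemma wedge_add_left (a b c : Fin 4 → Fin 4 → ℝ) : wedge (a + b) c = wedge a c + wedge b c := by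
  simp only [wedge, Pi.add_apply]; ring

lemma wedge_smul_left (t : ℝ) (a b : Fin 4 → Fin 4 → ℝ) : wedge (t • a) b = t * wedge a b := by
  simp only [wedge, Pi.smul_apply, smul_eq_mul]; ring

lemma wedge_sub_right (a b c : Fin 4 → Fin 4 → ℝ) : wedge a (b - c) = wedge a b - wedge a c := by
  simp only [wedge, Pi.sub_apply]; ring

/-- The Schur-complement form attached to the pair `c1, c2`. -/
def schur (c1 c2 u u' : Fin 4 → Fin 4 → ℝ) : ℝ :=
  (wedge c1 c1 * wedge c2 c2 - wedge c1 c2 ^ 2) * wedge u u' -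
    (wedge c2 c2 * wedge c1 u * wedge c1 u' -
      wedge c1 c2 * (wedge c1 u * wedge c2 u' + wedge c2 u * wedge c1 u') +
      wedge c1 c1 * wedge c2 u * wedge c2 u')

lemma schur_comm (c1 c2 u u' : Fin 4 → Fin 4 → ℝ) : schur c1 c2 u u' = schur c1 c2 u' u := by
  unfold schur; rw [wedge_comm u u']; ring

lemma schur_add_right (c1 c2 u a b : Fin 4 → Fin 4 → ℝ) :
    schur c1 c2 u (a + b) = schur c1 c2 u a + schur c1 c2 u b := by
  unfold schur; simp only [wedge_add_right]; ring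

lemma schur_smul_right (c1 c2 u a : Fin 4 → Fin 4 → ℝ) (t : ℝ) :
    schur c1 c2 u (t • a) = t * schur c1 c2 u a := by
  unfold schur; simp only [wedge_smul_right]; ring

lemma schur_add_left (c1 c2 a b u : Fin 4 → Fin 4 → ℝ) :
    schur c1 c2 (a + b) u = schur c1 c2 a u + schur c1 c2 b u := by
  rw [schur_comm, schur_add_right, schur_comm c1 c2 u a, schur_comm c1 c2 u b]

lemma schur_smul_left (c1 c2 a u : Fin 4 → Fin 4 → ℝ) (t : ℝ) :
    schur c1 c2 (t • a) u = t * schur c1 c2 a u := by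
  rw [schur_comm, schur_smul_right, schur_comm]

/-- The two-form representing `schur c1 c2 · w` through the wedge pairing. -/
def schurRep (c1 c2 w : Fin 4 → Fin 4 → ℝ) : Fin 4 → Fin 4 → ℝ :=
  (wedge c1 c1 * wedge c2 c2 - wedge c1 c2 ^ 2) • w -
    (wedge c2 c2 * wedge c1 w - wedge c1 c2 * wedge c2 w) • c1 -
    (wedge c1 c1 * wedge c2 w - wedge c1 c2 * wedge c1 w) • c2

lemma schur_eq_wedge (c1 c2 u w : Fin 4 → Fin 4 → ℝ) :
    schur c1 c2 u w = wedge u (schurRep c1 c2 w) := by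
  unfold schur schurRep
  rw [wedge_sub_right, wedge_sub_right, wedge_smul_right, wedge_smul_right, wedge_smul_right,
    wedge_comm u c1, wedge_comm u c2]
  ring

/-- The Gram quadratic form of the triple `c1, c2, u`. -/
lemma gram_expand (c1 c2 u : Fin 4 → Fin 4 → ℝ) (v : Fin 3 → ℝ) :
    ∑ i, ∑ j, v i * v j * wedge (![c1, c2, u] i) (![c1, c2, u] j) =
      v 0 ^ 2 * wedge c1 c1 + 2 * (v 0 * v 1) * wedge c1 c2 + v 1 ^ 2 * wedge c2 c2 +
        2 * (v 0 * v 2) * wedge c1 u + 2 * (v 1 * v 2) * wedge c2 u + v 2 ^ 2 * wedge u u := by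
  simp only [Fin.sum_univ_three, Matrix.cons_val_zero, Matrix.cons_val_one, Matrix.cons_val_two,
    Matrix.head_cons, Matrix.tail_cons]
  rw [wedge_comm c2 c1, wedge_comm u c1, wedge_comm u c2]
  ring

lemma pos_imp (c1 c2 u : Fin 4 → Fin 4 → ℝ) (h : PosTriple ![c1, c2, u]) :
    0 < wedge c1 c1 ∧ 0 < wedge c1 c1 * wedge c2 c2 - wedge c1 c2 ^ 2 ∧ 0 < schur c1 c2 u u := by
  have h1 : 0 < wedge c1 c1 := by
    have := h ![1, 0, 0] (by
      intro h0
      have := congrFun h0 0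
      simp at this)
    rw [gram_expand] at this
    simpa using this
  have h2 : 0 < wedge c1 c1 * wedge c2 c2 - wedge c1 c2 ^ 2 := by
    have := h ![wedge c1 c2, - wedge c1 c1, 0] (by
      intro h0
      have := congrFun h0 1
      simp at this
      linarith)
    rw [gram_expand] at this
    simp only [Matrix.cons_val_zero, Matrix.cons_val_one, Matrix.cons_val_two,
      Matrix.head_cons, Matrix.tail_cons] at this
    have e : wedge c1 c2 ^ 2 * wedge c1 c1 + 2 * (wedge c1 c2 * -wedge c1 c1) * wedge c1 c2 +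
        (-wedge c1 c1) ^ 2 * wedge c2 c2 + 2 * (wedge c1 c2 * 0) * wedge c1 u +
        2 * (-wedge c1 c1 * 0) * wedge c2 u + 0 ^ 2 * wedge u u =
        wedge c1 c1 * (wedge c1 c1 * wedge c2 c2 - wedge c1 c2 ^ 2) := by ring
    rw [e] at this
    exact (mul_pos_iff_of_pos_left h1).mp this
  refine ⟨h1, h2, ?_⟩
  set D := wedge c1 c1 * wedge c2 c2 - wedge c1 c2 ^ 2 with hD
  have := h ![-(wedge c2 c2 * wedge c1 u - wedge c1 c2 * wedge c2 u),
      -(wedge c1 c1 * wedge c2 u - wedge c1 c2 * wedge c1 u), D] (by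
    intro h0
    have := congrFun h0 2
    simp at this
    linarith)
  rw [gram_expand] at this
  simp only [Matrix.cons_val_zero, Matrix.cons_val_one, Matrix.cons_val_two,
    Matrix.head_cons, Matrix.tail_cons] at this
  have e : (-(wedge c2 c2 * wedge c1 u - wedge c1 c2 * wedge c2 u)) ^ 2 * wedge c1 c1 +
      2 * (-(wedge c2 c2 * wedge c1 u - wedge c1 c2 * wedge c2 u) *
        -(wedge c1 c1 * wedge c2 u - wedge c1 c2 * wedge c1 u)) * wedge c1 c2 +
      (-(wedge c1 c1 * wedge c2 u - wedge c1 c2 * wedge c1 u)) ^ 2 * wedge c2 c2 +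
      2 * (-(wedge c2 c2 * wedge c1 u - wedge c1 c2 * wedge c2 u) * D) * wedge c1 u +
      2 * (-(wedge c1 c1 * wedge c2 u - wedge c1 c2 * wedge c1 u) * D) * wedge c2 u +
      D ^ 2 * wedge u u = D * schur c1 c2 u u := by
    rw [hD]; unfold schur; ring
  rw [e] at this
  exact (mul_pos_iff_of_pos_left h2).mp this


lemma pos_of (c1 c2 u : Fin 4 → Fin 4 → ℝ) (h1 : 0 < wedge c1 c1)
    (h2 : 0 < wedge c1 c1 * wedge c2 c2 - wedge c1 c2 ^ 2) (h3 : 0 < schur c1 c2 u u) :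
    PosTriple ![c1, c2, u] := by
  intro v hv
  rw [gram_expand]
  unfold schur at h3
  generalize wedge c1 c1 = g11 at *
  generalize wedge c1 c2 = g12 at *
  generalize wedge c2 c2 = g22 at *
  generalize wedge c1 u = l1 at *
  generalize wedge c2 u = l2 at *
  generalize wedge u u = q at *
  by_contra hle
  rw [not_lt] at hle
  set D := g11 * g22 - g12 ^ 2 with hD
  set B := D * q - (g22 * l1 * l1 - g12 * (l1 * l2 + l2 * l1) + g11 * l2 * l2) with hB
  set X := D * v 0 + v 2 * (g22 * l1 - g12 * l2) with hX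
  set Y := D * v 1 + v 2 * (g11 * l2 - g12 * l1) with hY
  have key : g11 * D ^ 2 * (v 0 ^ 2 * g11 + 2 * (v 0 * v 1) * g12 + v 1 ^ 2 * g22 +
      2 * (v 0 * v 2) * l1 + 2 * (v 1 * v 2) * l2 + v 2 ^ 2 * q) =
      (g11 * X + g12 * Y) ^ 2 + D * Y ^ 2 + g11 * D * B * v 2 ^ 2 := by
    rw [hX, hY, hB, hD]; ring
  have hnonpos : g11 * D ^ 2 * (v 0 ^ 2 * g11 + 2 * (v 0 * v 1) * g12 + v 1 ^ 2 * g22 +
      2 * (v 0 * v 2) * l1 + 2 * (v 1 * v 2) * l2 + v 2 ^ 2 * q) ≤ 0 :=
    mul_nonpos_of_nonneg_of_nonpos (by positivity) hle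
  have t1 : 0 ≤ (g11 * X + g12 * Y) ^ 2 := sq_nonneg _
  have t2 : 0 ≤ D * Y ^ 2 := by positivity
  have t3 : 0 ≤ g11 * D * B * v 2 ^ 2 := by positivity
  have z3 : g11 * D * B * v 2 ^ 2 = 0 := by linarith
  have z2 : D * Y ^ 2 = 0 := by linarith
  have z1 : (g11 * X + g12 * Y) ^ 2 = 0 := by linarith
  have hv2 : v 2 = 0 := by
    have hc : g11 * D * B ≠ 0 := by positivity
    have := (mul_eq_zero.mp z3).resolve_left hc
    exact pow_eq_zero_iff (by norm_num) |>.mp this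
  have hYz : Y = 0 := by
    have := (mul_eq_zero.mp z2).resolve_left h2.ne'
    exact pow_eq_zero_iff (by norm_num) |>.mp this
  have hv1 : v 1 = 0 := by
    rw [hY, hv2] at hYz
    have : D * v 1 = 0 := by linarith
    exact (mul_eq_zero.mp this).resolve_left h2.ne'
  have hXz : X = 0 := by
    have h' : g11 * X + g12 * Y = 0 := pow_eq_zero_iff (by norm_num) |>.mp z1
    rw [hYz] at h'
    have : g11 * X = 0 := by linarith
    exact (mul_eq_zero.mp this).resolve_left h1.ne'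
  have hv0 : v 0 = 0 := by
    rw [hX, hv2] at hXz
    have : D * v 0 = 0 := by linarith
    exact (mul_eq_zero.mp this).resolve_left h2.ne'
  apply hv
  ext i
  fin_cases i
  · exact hv0
  · exact hv1
  · exact hv2

/-- No four two-forms span a subspace on which the wedge form is positive definite. -/
lemma exists_nonpos (w : Fin 4 → Fin 4 → Fin 4 → ℝ) :
    ∃ lam : Fin 4 → ℝ, lam ≠ 0 ∧ wedge (∑ k, lam k • w k) (∑ k, lam k • w k) ≤ 0 := by
  let M : Matrix (Fin 3) (Fin 4) ℝ := Matrix.of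
    ![fun k => w k 0 1 + w k 2 3, fun k => w k 0 2 - w k 1 3, fun k => w k 0 3 + w k 1 2]
  have hker : LinearMap.ker (Matrix.mulVecLin M) ≠ ⊥ :=
    LinearMap.ker_ne_bot_of_finrank_lt (by simp)
  obtain ⟨lam, hlam, hne⟩ := (Submodule.ne_bot_iff _).mp hker
  refine ⟨lam, hne, ?_⟩
  have hM : M.mulVec lam = 0 := by simpa using hlam
  have e0 := congrFun hM 0
  have e1 := congrFun hM 1
  have e2 := congrFun hM 2
  simp only [Matrix.mulVec, dotProduct, Fin.sum_univ_four, M, Matrix.of_apply,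
    Matrix.cons_val_zero, Matrix.cons_val_one, Matrix.cons_val_two, Matrix.head_cons,
    Matrix.tail_cons, Pi.zero_apply] at e0 e1 e2
  simp only [wedge, Fin.sum_univ_four, Pi.add_apply, Pi.smul_apply, smul_eq_mul]
  set W01 := lam 0 * w 0 0 1 + lam 1 * w 1 0 1 + lam 2 * w 2 0 1 + lam 3 * w 3 0 1 with h01
  set W02 := lam 0 * w 0 0 2 + lam 1 * w 1 0 2 + lam 2 * w 2 0 2 + lam 3 * w 3 0 2 with h02
  set W03 := lam 0 * w 0 0 3 + lam 1 * w 1 0 3 + lam 2 * w 2 0 3 + lam 3 * w 3 0 3 with h03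
  set W12 := lam 0 * w 0 1 2 + lam 1 * w 1 1 2 + lam 2 * w 2 1 2 + lam 3 * w 3 1 2 with h12
  set W13 := lam 0 * w 0 1 3 + lam 1 * w 1 1 3 + lam 2 * w 2 1 3 + lam 3 * w 3 1 3 with h13
  set W23 := lam 0 * w 0 2 3 + lam 1 * w 1 2 3 + lam 2 * w 2 2 3 + lam 3 * w 3 2 3 with h23
  have f0 : W01 + W23 = 0 := by rw [h01, h23]; linarith
  have f1 : W02 - W13 = 0 := by rw [h02, h13]; linarith
  have f2 : W03 + W12 = 0 := by rw [h03, h12]; linarith
  have g0 : W23 = -W01 := by linarith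
  have g1 : W13 = W02 := by linarith
  have g2 : W12 = -W03 := by linarith
  rw [g0, g1, g2]
  nlinarith [sq_nonneg W01, sq_nonneg W02, sq_nonneg W03]

lemma schur_ne_zero (c1 c2 u u' : Fin 4 → Fin 4 → ℝ) (h1 : 0 < wedge c1 c1)
    (h2 : 0 < wedge c1 c1 * wedge c2 c2 - wedge c1 c2 ^ 2) (hu : 0 < schur c1 c2 u u)
    (hu' : 0 < schur c1 c2 u' u') : schur c1 c2 u u' ≠ 0 := by
  intro h0
  obtain ⟨lam, hne, hle⟩ := exists_nonpos ![c1, c2, u, u']
  have hW : wedge (∑ k, lam k • ![c1, c2, u, u'] k) (∑ k, lam k • ![c1, c2, u, u'] k) =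
      lam 0 ^ 2 * wedge c1 c1 + 2 * (lam 0 * lam 1) * wedge c1 c2 + lam 1 ^ 2 * wedge c2 c2 +
      2 * (lam 0 * lam 2) * wedge c1 u + 2 * (lam 0 * lam 3) * wedge c1 u' +
      2 * (lam 1 * lam 2) * wedge c2 u + 2 * (lam 1 * lam 3) * wedge c2 u' +
      lam 2 ^ 2 * wedge u u + 2 * (lam 2 * lam 3) * wedge u u' + lam 3 ^ 2 * wedge u' u' := by
    simp only [Fin.sum_univ_four, Matrix.cons_val_zero, Matrix.cons_val_one, Matrix.cons_val_two,
      Matrix.cons_val_three, Matrix.head_cons, Matrix.tail_cons, wedge_add_left, wedge_add_right,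
      wedge_smul_left, wedge_smul_right]
    rw [wedge_comm c2 c1, wedge_comm u c1, wedge_comm u c2, wedge_comm u' c1, wedge_comm u' c2,
      wedge_comm u' u]
    ring
  rw [hW] at hle
  unfold schur at h0 hu hu'
  rw [wedge_comm c1 u, wedge_comm c2 u, wedge_comm c1 u', wedge_comm c2 u'] at *
  generalize wedge c1 c1 = g11 at *
  generalize wedge c1 c2 = g12 at *
  generalize wedge c2 c2 = g22 at *
  generalize wedge u c1 = a1 at *
  generalize wedge u c2 = a2 at *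
  generalize wedge u' c1 = b1 at *
  generalize wedge u' c2 = b2 at *
  generalize wedge u u = quu at *
  generalize wedge u u' = quv at *
  generalize wedge u' u' = qvv at *
  set D := g11 * g22 - g12 ^ 2 with hD
  set X := D * lam 0 + lam 2 * (g22 * a1 - g12 * a2) + lam 3 * (g22 * b1 - g12 * b2) with hX
  set Y := D * lam 1 + lam 2 * (g11 * a2 - g12 * a1) + lam 3 * (g11 * b2 - g12 * b1) with hY
  set Buu := D * quu - (g22 * a1 * a1 - g12 * (a1 * a2 + a2 * a1) + g11 * a2 * a2) with hBuu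
  set Bvv := D * qvv - (g22 * b1 * b1 - g12 * (b1 * b2 + b2 * b1) + g11 * b2 * b2) with hBvv
  have key : g11 * D ^ 2 * (lam 0 ^ 2 * g11 + 2 * (lam 0 * lam 1) * g12 + lam 1 ^ 2 * g22 +
      2 * (lam 0 * lam 2) * a1 + 2 * (lam 0 * lam 3) * b1 +
      2 * (lam 1 * lam 2) * a2 + 2 * (lam 1 * lam 3) * b2 +
      lam 2 ^ 2 * quu + 2 * (lam 2 * lam 3) * quv + lam 3 ^ 2 * qvv) =
      (g11 * X + g12 * Y) ^ 2 + D * Y ^ 2 + g11 * D * (lam 2 ^ 2 * Buu + lam 3 ^ 2 * Bvv) +
      2 * g11 * D * (lam 2 * lam 3) *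
        (D * quv - (g22 * a1 * b1 - g12 * (a1 * b2 + a2 * b1) + g11 * a2 * b2)) := by
    rw [hX, hY, hBuu, hBvv, hD]; ring
  rw [h0, mul_zero, add_zero] at key
  have hnonpos : g11 * D ^ 2 * (lam 0 ^ 2 * g11 + 2 * (lam 0 * lam 1) * g12 + lam 1 ^ 2 * g22 +
      2 * (lam 0 * lam 2) * a1 + 2 * (lam 0 * lam 3) * b1 +
      2 * (lam 1 * lam 2) * a2 + 2 * (lam 1 * lam 3) * b2 +
      lam 2 ^ 2 * quu + 2 * (lam 2 * lam 3) * quv + lam 3 ^ 2 * qvv) ≤ 0 :=
    mul_nonpos_of_nonneg_of_nonpos (by positivity) hle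
  have t1 : 0 ≤ (g11 * X + g12 * Y) ^ 2 := sq_nonneg _
  have t2 : 0 ≤ D * Y ^ 2 := by positivity
  have t3 : 0 ≤ lam 2 ^ 2 * Buu := by positivity
  have t4 : 0 ≤ lam 3 ^ 2 * Bvv := by positivity
  have t5 : 0 ≤ g11 * D * (lam 2 ^ 2 * Buu + lam 3 ^ 2 * Bvv) := by positivity
  have z5 : g11 * D * (lam 2 ^ 2 * Buu + lam 3 ^ 2 * Bvv) = 0 := by linarith
  have z2 : D * Y ^ 2 = 0 := by linarith
  have z1 : (g11 * X + g12 * Y) ^ 2 = 0 := by linarith
  have z34 : lam 2 ^ 2 * Buu + lam 3 ^ 2 * Bvv = 0 := by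
    have hc : g11 * D ≠ 0 := by positivity
    exact (mul_eq_zero.mp z5).resolve_left hc
  have hl2 : lam 2 = 0 := by
    have : lam 2 ^ 2 * Buu = 0 := by linarith
    have := (mul_eq_zero.mp this).resolve_right hu.ne'
    exact pow_eq_zero_iff (by norm_num) |>.mp this
  have hl3 : lam 3 = 0 := by
    have : lam 3 ^ 2 * Bvv = 0 := by linarith
    have := (mul_eq_zero.mp this).resolve_right hu'.ne'
    exact pow_eq_zero_iff (by norm_num) |>.mp this
  have hYz : Y = 0 := by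
    have := (mul_eq_zero.mp z2).resolve_left h2.ne'
    exact pow_eq_zero_iff (by norm_num) |>.mp this
  have hl1 : lam 1 = 0 := by
    rw [hY, hl2, hl3] at hYz
    have : D * lam 1 = 0 := by linarith
    exact (mul_eq_zero.mp this).resolve_left h2.ne'
  have hXz : X = 0 := by
    have h' : g11 * X + g12 * Y = 0 := pow_eq_zero_iff (by norm_num) |>.mp z1
    rw [hYz] at h'
    have : g11 * X = 0 := by linarith
    exact (mul_eq_zero.mp this).resolve_left h1.ne'
  have hl0 : lam 0 = 0 := by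
    rw [hX, hl2, hl3] at hXz
    have : D * lam 0 = 0 := by linarith
    exact (mul_eq_zero.mp this).resolve_left h2.ne'
  apply hne
  ext i
  fin_cases i
  · exact hl0
  · exact hl1
  · exact hl2
  · exact hl3

end Vale.Agent.Lib.P247
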