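import Mathlib

namespace Vale.Agent.Lib.P247

/-- A constant-coefficient two-form on `ℝ⁴` is stored as its array of coefficients
`a i j` (only the six entries with `i < j` are used): `a = ∑_{i<j} a i j dxⁱ ∧ dxʲ`.
`wedge a b` is the coefficient of `dx⁰ ∧ dx¹ ∧ dx² ∧ dx³` in `a ∧ b`. -/
def wedge (a b : Fin 4 → Fin 4 → ℝ) : ℝ :=
  a 0 1 * b 2 3 - a 0 2 * b 1 3 + a 0 3 * b 1 2 + a 1 2 * b 0 3 - a 1 3 * b 0 2 + a 2 3 * b 0 1

/-- A triple of two-forms at a point is positive when the symmetric matrix of its pairwise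
wedge products is positive definite. -/
def PosTriple (w : Fin 3 → Fin 4 → Fin 4 → ℝ) : Prop :=
  ∀ v : Fin 3 → ℝ, v ≠ 0 → 0 < ∑ i, ∑ j, v i * v j * wedge (w i) (w j)

/-- Coefficients of the exterior derivative of the one-form `∑_j α j dxʲ` at the point `x`:
`(dα) i j = ∂_i α_j - ∂_j α_i`. -/
noncomputable def dOne (α : (Fin 4 → ℝ) → Fin 4 → ℝ) (x : Fin 4 → ℝ) : Fin 4 → Fin 4 → ℝ :=
  fun i j => fderiv ℝ (fun y => α y j) x (Pi.single i 1) -
    fderiv ℝ (fun y => α y i) x (Pi.single j 1)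

end Vale.Agent.Lib.P247
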