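import Vale.Agent.Lib.P247.Periodic

namespace Vale.Agent.Lib.P247

theorem linear_path (c1 c2 c3 : Fin 4 → Fin 4 → ℝ) (α : (Fin 4 → ℝ) → Fin 4 → ℝ)
    (hα : ContDiff ℝ 1 α) (hper : ∀ x (j : Fin 4), α (x + Pi.single j 1) = α x)
    (hpos : ∀ x, PosTriple ![c1, c2, c3 + dOne α x]) :
    ∀ t ∈ Set.Icc (0 : ℝ) 1, ∀ x, PosTriple ![c1, c2, c3 + t • dOne α x] := by
  obtain ⟨h1, h2, -⟩ := pos_imp c1 c2 _ (hpos 0)
  have hN : ∀ x, 0 < schur c1 c2 (c3 + dOne α x) (c3 + dOne α x) :=
    fun x => (pos_imp c1 c2 _ (hpos x)).2.2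
  have hc : ∀ j, ContDiff ℝ 1 (fun y => α y j) := fun j => contDiff_pi.mp hα j
  have hcont : ∀ i j, Continuous (fun x => dOne α x i j) := by
    intro i j
    unfold dOne
    exact (((hc j).continuous_fderiv one_ne_zero).clm_apply continuous_const).sub
      (((hc i).continuous_fderiv one_ne_zero).clm_apply continuous_const)
  have hwc : ∀ m : Fin 4 → Fin 4 → ℝ, Continuous (fun y => wedge (c3 + dOne α y) m) := by
    intro m
    simp only [wedge, Pi.add_apply]
    exact ((((((continuous_const.add (hcont 0 1)).mul continuous_const).sub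
      ((continuous_const.add (hcont 0 2)).mul continuous_const)).add
      ((continuous_const.add (hcont 0 3)).mul continuous_const)).add
      ((continuous_const.add (hcont 1 2)).mul continuous_const)).sub
      ((continuous_const.add (hcont 1 3)).mul continuous_const)).add
      ((continuous_const.add (hcont 2 3)).mul continuous_const)
  -- any two of the forms `c3 + dα(x)` pair positively
  have hmix : ∀ x x', 0 < schur c1 c2 (c3 + dOne α x) (c3 + dOne α x') := by
    intro x x'
    by_contra hle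
    rw [not_lt] at hle
    have hcontF : Continuous (fun y => schur c1 c2 (c3 + dOne α x) (c3 + dOne α y)) := by
      have : (fun y => schur c1 c2 (c3 + dOne α x) (c3 + dOne α y)) =
          fun y => wedge (c3 + dOne α y) (schurRep c1 c2 (c3 + dOne α x)) := by
        funext y
        rw [schur_comm, schur_eq_wedge]
      rw [this]
      exact hwc _
    have hz : (0 : ℝ) ∈ Set.Icc (schur c1 c2 (c3 + dOne α x) (c3 + dOne α x'))
        (schur c1 c2 (c3 + dOne α x) (c3 + dOne α x)) := ⟨hle, (hN x).le⟩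
    obtain ⟨z, hz⟩ := intermediate_value_univ x' x hcontF hz
    exact schur_ne_zero c1 c2 _ _ h1 h2 (hN x) (hN z) hz
  -- the constant form `c3` pairs positively with each `c3 + dα(x')`
  have h3 : ∀ x', 0 < schur c1 c2 c3 (c3 + dOne α x') := by
    intro x'
    obtain ⟨x0, hx0⟩ := exists_wedge_dOne_nonpos α hα hper (schurRep c1 c2 (c3 + dOne α x'))
    rw [← schur_eq_wedge] at hx0
    have e := schur_add_left c1 c2 c3 (dOne α x0) (c3 + dOne α x')
    have := hmix x0 x'
    linarith
  -- and with itself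
  have h4 : 0 < schur c1 c2 c3 c3 := by
    obtain ⟨x1, hx1⟩ := exists_wedge_dOne_nonpos α hα hper (schurRep c1 c2 c3)
    rw [← schur_eq_wedge] at hx1
    have e := schur_add_right c1 c2 c3 c3 (dOne α x1)
    have e' := schur_comm c1 c2 c3 (dOne α x1)
    have := h3 x1
    linarith
  intro t ht x
  apply pos_of c1 c2 _ h1 h2
  have e1 : schur c1 c2 (c3 + t • dOne α x) (c3 + t • dOne α x) =
      schur c1 c2 c3 c3 + 2 * t * schur c1 c2 c3 (dOne α x) +
        t ^ 2 * schur c1 c2 (dOne α x) (dOne α x) := by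
    rw [schur_add_left, schur_add_right, schur_add_right, schur_smul_left, schur_smul_right,
      schur_smul_right, schur_smul_left, schur_comm c1 c2 (dOne α x) c3]
    ring
  have e2 : schur c1 c2 c3 (c3 + dOne α x) =
      schur c1 c2 c3 c3 + schur c1 c2 c3 (dOne α x) := schur_add_right _ _ _ _ _
  have e3 : schur c1 c2 (c3 + dOne α x) (c3 + dOne α x) =
      schur c1 c2 c3 c3 + 2 * schur c1 c2 c3 (dOne α x) +
        schur c1 c2 (dOne α x) (dOne α x) := by
    rw [schur_add_left, schur_add_right, schur_add_right, schur_comm c1 c2 (dOne α x) c3]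
    ring
  have p2 := h3 x
  have p3 := hN x
  rw [e2] at p2
  rw [e3] at p3
  rw [e1]
  obtain ⟨ht0, ht1⟩ := ht
  have key : schur c1 c2 c3 c3 + 2 * t * schur c1 c2 c3 (dOne α x) +
      t ^ 2 * schur c1 c2 (dOne α x) (dOne α x) =
      (1 - t) ^ 2 * schur c1 c2 c3 c3 +
        2 * (t * (1 - t)) * (schur c1 c2 c3 c3 + schur c1 c2 c3 (dOne α x)) +
        t ^ 2 * (schur c1 c2 c3 c3 + 2 * schur c1 c2 c3 (dOne α x) +
          schur c1 c2 (dOne α x) (dOne α x)) := by ring
  rw [key]
  have q2 : 0 ≤ 2 * (t * (1 - t)) * (schur c1 c2 c3 c3 + schur c1 c2 c3 (dOne α x)) :=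
    mul_nonneg (mul_nonneg (by norm_num) (mul_nonneg ht0 (by linarith))) p2.le
  rcases eq_or_lt_of_le ht1 with rfl | hlt
  · have : 0 < (1 : ℝ) ^ 2 * (schur c1 c2 c3 c3 + 2 * schur c1 c2 c3 (dOne α x) +
        schur c1 c2 (dOne α x) (dOne α x)) := by simpa using p3
    have q1 : 0 ≤ (1 - (1 : ℝ)) ^ 2 * schur c1 c2 c3 c3 := by simp
    linarith
  · have q1 : 0 < (1 - t) ^ 2 * schur c1 c2 c3 c3 :=
      mul_pos (pow_pos (by linarith) 2) h4
    have q3 : 0 ≤ t ^ 2 * (schur c1 c2 c3 c3 + 2 * schur c1 c2 c3 (dOne α x) +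
        schur c1 c2 (dOne α x) (dOne α x)) := mul_nonneg (sq_nonneg t) p3.le
    linarith

end Vale.Agent.Lib.P247
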