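import Vale.Agent.Lib.P247.Algebra

open MeasureTheory Set

namespace Vale.Agent.Lib.P247

lemma insertNth_one_eq (i : Fin 4) (x : Fin 3 → ℝ) :
    (i.insertNth (1 : ℝ) x : Fin 4 → ℝ) = i.insertNth (0 : ℝ) x + Pi.single i 1 := by
  ext j
  rcases eq_or_ne j i with rfl | hne
  · simp
  · obtain ⟨k, rfl⟩ := Fin.exists_succAbove_eq hne
    simp [Fin.succAbove_ne]

/-- A continuously differentiable vector field on `ℝ⁴`, periodic under the integer lattice,
has a point where its divergence is not positive. -/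
lemma exists_div_nonpos (f : Fin 4 → (Fin 4 → ℝ) → ℝ) (hf : ∀ i, ContDiff ℝ 1 (f i))
    (hper : ∀ i x, f i (x + Pi.single i 1) = f i x) :
    ∃ x, ∑ i, fderiv ℝ (f i) x (Pi.single i 1) ≤ 0 := by
  by_contra hcon
  push Not at hcon
  have hcont : Continuous (fun x => ∑ i, fderiv ℝ (f i) x (Pi.single i 1)) := by
    refine continuous_finsetSum _ (fun i _ => ?_)
    exact ((hf i).continuous_fderiv one_ne_zero).clm_apply continuous_const
  have hI : IntegrableOn (fun x => ∑ i, fderiv ℝ (f i) x (Pi.single i 1))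
      (Icc (0 : Fin 4 → ℝ) 1) := hcont.continuousOn.integrableOn_compact isCompact_Icc
  have hint := integral_divergence_of_hasFDerivAt_off_countable' (0 : Fin 4 → ℝ) 1
    (by intro i; simp) f (fun i x => fderiv ℝ (f i) x) ∅ countable_empty
    (fun i => (hf i).continuous.continuousOn)
    (fun x _ i => ((hf i).differentiable one_ne_zero x).hasFDerivAt) hI
  have hzero : (∑ i : Fin 4,
      ((∫ x in Icc ((0 : Fin 4 → ℝ) ∘ i.succAbove) ((1 : Fin 4 → ℝ) ∘ i.succAbove),
          f i (i.insertNth ((1 : Fin 4 → ℝ) i) x)) -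
        ∫ x in Icc ((0 : Fin 4 → ℝ) ∘ i.succAbove) ((1 : Fin 4 → ℝ) ∘ i.succAbove),
          f i (i.insertNth ((0 : Fin 4 → ℝ) i) x))) = 0 := by
    apply Finset.sum_eq_zero
    intro i _
    rw [sub_eq_zero]
    congr 1
    ext x
    rw [Pi.one_apply, Pi.zero_apply, insertNth_one_eq, hper]
  rw [hzero] at hint
  have hpos : 0 < ∫ x in Icc (0 : Fin 4 → ℝ) 1, ∑ i, fderiv ℝ (f i) x (Pi.single i 1) := by
    rw [integral_pos_iff_support_of_nonneg (fun x => (hcon x).le) hI]
    have hs : Function.support (fun x => ∑ i, fderiv ℝ (f i) x (Pi.single i 1)) = univ := by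
      ext x
      simp [(hcon x).ne']
    rw [hs, Measure.restrict_apply_univ, Real.volume_Icc_pi]
    simp
  linarith


/-- For a periodic one-form `α` and a constant two-form `m`, the function `dα ∧ m` is a
divergence, so it is not positive somewhere. -/
lemma exists_wedge_dOne_nonpos (α : (Fin 4 → ℝ) → Fin 4 → ℝ) (hα : ContDiff ℝ 1 α)
    (hper : ∀ x (j : Fin 4), α (x + Pi.single j 1) = α x) (m : Fin 4 → Fin 4 → ℝ) :
    ∃ x, wedge (dOne α x) m ≤ 0 := by
  have hc : ∀ j, ContDiff ℝ 1 (fun y => α y j) := fun j => contDiff_pi.mp hα j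
  let f : Fin 4 → (Fin 4 → ℝ) → ℝ := ![
    fun y => m 2 3 * α y 1 - m 1 3 * α y 2 + m 1 2 * α y 3,
    fun y => m 0 3 * α y 2 - m 0 2 * α y 3 - m 2 3 * α y 0,
    fun y => m 1 3 * α y 0 - m 0 3 * α y 1 + m 0 1 * α y 3,
    fun y => m 0 2 * α y 1 - m 0 1 * α y 2 - m 1 2 * α y 0]
  have hf : ∀ i, ContDiff ℝ 1 (f i) := by
    intro i
    fin_cases i
    · exact ((contDiff_const.mul (hc 1)).sub (contDiff_const.mul (hc 2))).add
        (contDiff_const.mul (hc 3))
    · exact ((contDiff_const.mul (hc 2)).sub (contDiff_const.mul (hc 3))).sub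
        (contDiff_const.mul (hc 0))
    · exact ((contDiff_const.mul (hc 0)).sub (contDiff_const.mul (hc 1))).add
        (contDiff_const.mul (hc 3))
    · exact ((contDiff_const.mul (hc 1)).sub (contDiff_const.mul (hc 2))).sub
        (contDiff_const.mul (hc 0))
  have hfper : ∀ i x, f i (x + Pi.single i 1) = f i x := by
    intro i x
    fin_cases i <;> simp [f, hper]
  obtain ⟨x, hx⟩ := exists_div_nonpos f hf hfper
  refine ⟨x, ?_⟩
  have hd : ∀ j, HasFDerivAt (fun y => α y j) (fderiv ℝ (fun y => α y j) x) x :=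
    fun j => ((hc j).differentiable one_ne_zero x).hasFDerivAt
  have e0 : fderiv ℝ (f 0) x = m 2 3 • fderiv ℝ (fun y => α y 1) x -
      m 1 3 • fderiv ℝ (fun y => α y 2) x + m 1 2 • fderiv ℝ (fun y => α y 3) x :=
    ((((hd 1).const_mul (m 2 3)).sub ((hd 2).const_mul (m 1 3))).add
      ((hd 3).const_mul (m 1 2))).fderiv
  have e1 : fderiv ℝ (f 1) x = m 0 3 • fderiv ℝ (fun y => α y 2) x -
      m 0 2 • fderiv ℝ (fun y => α y 3) x - m 2 3 • fderiv ℝ (fun y => α y 0) x :=
    ((((hd 2).const_mul (m 0 3)).sub ((hd 3).const_mul (m 0 2))).sub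
      ((hd 0).const_mul (m 2 3))).fderiv
  have e2 : fderiv ℝ (f 2) x = m 1 3 • fderiv ℝ (fun y => α y 0) x -
      m 0 3 • fderiv ℝ (fun y => α y 1) x + m 0 1 • fderiv ℝ (fun y => α y 3) x :=
    ((((hd 0).const_mul (m 1 3)).sub ((hd 1).const_mul (m 0 3))).add
      ((hd 3).const_mul (m 0 1))).fderiv
  have e3 : fderiv ℝ (f 3) x = m 0 2 • fderiv ℝ (fun y => α y 1) x -
      m 0 1 • fderiv ℝ (fun y => α y 2) x - m 1 2 • fderiv ℝ (fun y => α y 0) x :=
    ((((hd 1).const_mul (m 0 2)).sub ((hd 2).const_mul (m 0 1))).sub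
      ((hd 0).const_mul (m 1 2))).fderiv
  rw [Fin.sum_univ_four, e0, e1, e2, e3] at hx
  simp only [add_apply, sub_apply,
    smul_apply, smul_eq_mul] at hx
  simp only [wedge, dOne]
  linarith

end Vale.Agent.Lib.P247
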